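import Vale.Agent.P052.Defs

namespace Vale.Agent.P052

theorem clq_0_4 : clqChk 0 4 = true := by decide +kernel

theorem clq_4_9 : clqChk 4 9 = true := by decide +kernel

theorem clq_9_14 : clqChk 9 14 = true := by decide +kernel

theorem clq_14_19 : clqChk 14 19 = true := by decide +kernel

theorem clq_19_25 : clqChk 19 25 = true := by decide +kernel


end Vale.Agent.P052
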