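import Vale.Agent.P052.Defs

namespace Vale.Agent.P052

theorem clq_25_31 : clqChk 25 31 = true := by decide +kernel

theorem clq_31_38 : clqChk 31 38 = true := by decide +kernel

theorem clq_38_46 : clqChk 38 46 = true := by decide +kernel

theorem clq_46_54 : clqChk 46 54 = true := by decide +kernel

theorem clq_54_62 : clqChk 54 62 = true := by decide +kernel


end Vale.Agent.P052
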