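import Vale.Agent.P052.Defs

namespace Vale.Agent.P052

theorem clq_62_71 : clqChk 62 71 = true := by decide +kernel

theorem clq_71_82 : clqChk 71 82 = true := by decide +kernel

theorem clq_82_94 : clqChk 82 94 = true := by decide +kernel

theorem clq_94_105 : clqChk 94 105 = true := by decide +kernel

theorem clq_105_120 : clqChk 105 120 = true := by decide +kernel


end Vale.Agent.P052
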