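import Vale.Agent.P052.Defs

namespace Vale.Agent.P052

theorem clq_120_137 : clqChk 120 137 = true := by decide +kernel

theorem clq_137_165 : clqChk 137 165 = true := by decide +kernel

theorem clq_165_231 : clqChk 165 231 = true := by decide +kernel

theorem clq_231_321 : clqChk 231 321 = true := by decide +kernel


end Vale.Agent.P052
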