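import Vale.Agent.P052.Defs

namespace Vale.Agent.P052

theorem Krows_len : Krows.length = 416 := by decide +kernel

theorem trace_ok : traceChk = true := by decide +kernel

theorem geo_0_32 : geoChk 0 32 = true := by decide +kernel

theorem geo_32_64 : geoChk 32 64 = true := by decide +kernel

theorem geo_64_96 : geoChk 64 96 = true := by decide +kernel

theorem geo_96_128 : geoChk 96 128 = true := by decide +kernel

theorem geo_128_160 : geoChk 128 160 = true := by decide +kernel

theorem geo_160_192 : geoChk 160 192 = true := by decide +kernel

theorem geo_192_224 : geoChk 192 224 = true := by decide +kernel

theorem geo_224_256 : geoChk 224 256 = true := by decide +kernel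

theorem geo_256_288 : geoChk 256 288 = true := by decide +kernel

theorem geo_288_320 : geoChk 288 320 = true := by decide +kernel

theorem geo_320_321 : geoChk 320 321 = true := by decide +kernel


end Vale.Agent.P052
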