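import Vale.Agent.P052.Defs

namespace Vale.Agent.P052

theorem rows_0_8 : rowsChk 0 8 = true := by decide +kernel

theorem rows_8_16 : rowsChk 8 16 = true := by decide +kernel

theorem rows_16_24 : rowsChk 16 24 = true := by decide +kernel

theorem rows_24_32 : rowsChk 24 32 = true := by decide +kernel

theorem rows_32_40 : rowsChk 32 40 = true := by decide +kernel

theorem rows_40_48 : rowsChk 40 48 = true := by decide +kernel

theorem rows_48_56 : rowsChk 48 56 = true := by decide +kernel

theorem rows_56_64 : rowsChk 56 64 = true := by decide +kernel

theorem rows_64_72 : rowsChk 64 72 = true := by decide +kernel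

theorem rows_72_80 : rowsChk 72 80 = true := by decide +kernel

theorem rows_80_88 : rowsChk 80 88 = true := by decide +kernel

theorem rows_88_96 : rowsChk 88 96 = true := by decide +kernel

theorem rows_96_104 : rowsChk 96 104 = true := by decide +kernel


end Vale.Agent.P052
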