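import Vale.Agent.P052.Defs

namespace Vale.Agent.P052

theorem rows_104_112 : rowsChk 104 112 = true := by decide +kernel

theorem rows_112_120 : rowsChk 112 120 = true := by decide +kernel

theorem rows_120_128 : rowsChk 120 128 = true := by decide +kernel

theorem rows_128_136 : rowsChk 128 136 = true := by decide +kernel

theorem rows_136_144 : rowsChk 136 144 = true := by decide +kernel

theorem rows_144_152 : rowsChk 144 152 = true := by decide +kernel

theorem rows_152_160 : rowsChk 152 160 = true := by decide +kernel

theorem rows_160_168 : rowsChk 160 168 = true := by decide +kernel

theorem rows_168_176 : rowsChk 168 176 = true := by decide +kernel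

theorem rows_176_184 : rowsChk 176 184 = true := by decide +kernel

theorem rows_184_192 : rowsChk 184 192 = true := by decide +kernel

theorem rows_192_200 : rowsChk 192 200 = true := by decide +kernel

theorem rows_200_208 : rowsChk 200 208 = true := by decide +kernel


end Vale.Agent.P052
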