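import Vale.Agent.P052.Defs

namespace Vale.Agent.P052

theorem rows_208_216 : rowsChk 208 216 = true := by decide +kernel

theorem rows_216_224 : rowsChk 216 224 = true := by decide +kernel

theorem rows_224_232 : rowsChk 224 232 = true := by decide +kernel

theorem rows_232_240 : rowsChk 232 240 = true := by decide +kernel

theorem rows_240_248 : rowsChk 240 248 = true := by decide +kernel

theorem rows_248_256 : rowsChk 248 256 = true := by decide +kernel

theorem rows_256_264 : rowsChk 256 264 = true := by decide +kernel

theorem rows_264_272 : rowsChk 264 272 = true := by decide +kernel

theorem rows_272_280 : rowsChk 272 280 = true := by decide +kernel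

theorem rows_280_288 : rowsChk 280 288 = true := by decide +kernel

theorem rows_288_296 : rowsChk 288 296 = true := by decide +kernel

theorem rows_296_304 : rowsChk 296 304 = true := by decide +kernel

theorem rows_304_312 : rowsChk 304 312 = true := by decide +kernel


end Vale.Agent.P052
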