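import Vale.Agent.P052.Defs

namespace Vale.Agent.P052

theorem rows_312_320 : rowsChk 312 320 = true := by decide +kernel

theorem rows_320_328 : rowsChk 320 328 = true := by decide +kernel

theorem rows_328_336 : rowsChk 328 336 = true := by decide +kernel

theorem rows_336_344 : rowsChk 336 344 = true := by decide +kernel

theorem rows_344_352 : rowsChk 344 352 = true := by decide +kernel

theorem rows_352_360 : rowsChk 352 360 = true := by decide +kernel

theorem rows_360_368 : rowsChk 360 368 = true := by decide +kernel

theorem rows_368_376 : rowsChk 368 376 = true := by decide +kernel

theorem rows_376_384 : rowsChk 376 384 = true := by decide +kernel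

theorem rows_384_392 : rowsChk 384 392 = true := by decide +kernel

theorem rows_392_400 : rowsChk 392 400 = true := by decide +kernel

theorem rows_400_408 : rowsChk 400 408 = true := by decide +kernel

theorem rows_408_416 : rowsChk 408 416 = true := by decide +kernel


end Vale.Agent.P052
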