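import Vale.Agent.P052.Data

namespace Vale.Agent.P052

noncomputable def sumAux (f : Nat → Nat → Nat) (l : List Nat) : Nat → Nat :=
  List.rec (motive := fun _ => Nat → Nat) (fun _ => 0)
    (fun r _ ih k => Nat.add (f k r) (ih (Nat.succ k))) l

noncomputable def allAux (p : Nat → Nat → Bool) (l : List Nat) : Nat → Bool :=
  List.rec (motive := fun _ => Nat → Bool) (fun _ => true)
    (fun r _ ih k => Bool.rec false (ih (Nat.succ k)) (p k r)) l

noncomputable def Usum (n : Nat) : Nat :=
  Nat.rec (motive := fun _ => Nat) 0 (fun n ih => Nat.add ih (Nat.pow 262144 n)) n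

noncomputable def rowOK (i Ri : Nat) : Bool :=
  Bool.rec false
    (Bool.rec false
      (Bool.rec false
        (allAux (fun k Rk => Bool.rec false
            (Nat.beq (Nat.mod (Nat.div Ri (Nat.pow 262144 k)) 262144)
              (Nat.mod (Nat.div Rk (Nat.pow 262144 i)) 262144))
            (Nat.ble (Nat.mod (Nat.div Ri (Nat.pow 262144 k)) 262144) 18)) Krows 0)
        (Nat.beq (sumAux (fun k _ => Nat.mod (Nat.div Ri (Nat.pow 262144 k)) 262144) Krows 0) 1248))
      (Nat.beq (sumAux (fun k Rk => Nat.mul (Nat.mod (Nat.div Ri (Nat.pow 262144 k)) 262144) Rk) Krows 0)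
        (Nat.add (Nat.mul 96 Ri) (Nat.mul 3456 (Usum 416)))))
    (Nat.blt Ri (Nat.pow 262144 416))

noncomputable def guard (lo hi i : Nat) (b : Bool) : Bool :=
  Bool.rec (Bool.rec b true (Nat.ble hi i)) true (Nat.blt i lo)

noncomputable def rowsChk (lo hi : Nat) : Bool :=
  allAux (fun i Ri => guard lo hi i (rowOK i Ri)) Krows 0

noncomputable def geoOK (i Ri : Nat) : Bool :=
  Bool.rec false
    (allAux (fun k _ => Bool.rec (Bool.rec
        (Nat.ble 2 (Nat.mod (Nat.div Ri (Nat.pow 262144 k)) 262144)) true (Nat.beq k i)) true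
        (Nat.ble 321 k)) Krows 0)
    (Nat.beq (Nat.mod (Nat.div Ri (Nat.pow 262144 i)) 262144) (Bool.rec 18 16 (Nat.beq i 320)))

noncomputable def geoChk (lo hi : Nat) : Bool :=
  allAux (fun i Ri => guard lo hi i (geoOK i Ri)) Krows 0

noncomputable def traceChk : Bool :=
  Nat.beq (sumAux (fun i Ri => Nat.mod (Nat.div Ri (Nat.pow 262144 i)) 262144) Krows 0) 7296

noncomputable def zipIdxK (l : List Nat) : Nat → (List (Nat × Nat) → Bool) → Bool :=
  List.rec (motive := fun _ => Nat → (List (Nat × Nat) → Bool) → Bool)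
    (fun _ c => c [])
    (fun r _ ih k c => Nat.rec (ih 1 (fun l => c ((0, r) :: l)))
       (fun k' _ => ih (Nat.succ (Nat.succ k')) (fun l => c ((Nat.succ k', r) :: l))) k) l

noncomputable def filtK (m : Nat) (l : List (Nat × Nat)) : (List (Nat × Nat) → Bool) → Bool :=
  List.rec (motive := fun _ => (List (Nat × Nat) → Bool) → Bool)
    (fun c => c [])
    (fun w _ ih c => Bool.rec (ih c) (ih (fun l => c (w :: l)))
      (Nat.ble 3 (Nat.mod (Nat.div m (Nat.pow 262144 w.1)) 262144))) l

noncomputable def stepClq (prev : List (Nat × Nat) → Bool) (l : List (Nat × Nat)) : Bool :=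
  List.rec (motive := fun _ => Bool) true (fun v rest ih => Bool.rec false ih (filtK v.2 rest prev)) l

noncomputable def noClq (k : Nat) : List (Nat × Nat) → Bool :=
  Nat.rec (motive := fun _ => List (Nat × Nat) → Bool) (fun _ => false) (fun _ ih => stepClq ih) k

noncomputable def stepG (lo hi : Nat) (prev : List (Nat × Nat) → Bool) (l : List (Nat × Nat)) : Bool :=
  List.rec (motive := fun _ => Bool) true
    (fun v rest ih => Bool.rec false ih (guard lo hi v.1 (filtK v.2 rest prev))) l

noncomputable def clqChk (lo hi : Nat) : Bool :=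
  zipIdxK (Krows.take 321) 0 (fun l => stepG lo hi (noClq 5) l)

end Vale.Agent.P052
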