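import Mathlib
import Vale.Agent.P052.Defs

namespace Vale.Agent.P052

open Finset

theorem rec_false_eq (x b : Bool) : (Bool.rec (motive := fun _ => Bool) false x b) = (b && x) := by
  cases b <;> rfl

theorem sumAux_nil (f : ℕ → ℕ → ℕ) (k : ℕ) : sumAux f [] k = 0 := rfl

theorem sumAux_cons (f : ℕ → ℕ → ℕ) (r : ℕ) (l : List ℕ) (k : ℕ) :
    sumAux f (r :: l) k = f k r + sumAux f l (k + 1) := rfl

theorem allAux_nil (p : ℕ → ℕ → Bool) (k : ℕ) : allAux p [] k = true := rfl

theorem allAux_cons (p : ℕ → ℕ → Bool) (r : ℕ) (l : List ℕ) (k : ℕ) :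
    allAux p (r :: l) k = (p k r && allAux p l (k + 1)) := by
  change (Bool.rec (motive := fun _ => Bool) false (allAux p l (k + 1)) (p k r)) = _
  rw [rec_false_eq]

theorem sumAux_eq (f : ℕ → ℕ → ℕ) (l : List ℕ) (k0 : ℕ) :
    sumAux f l k0 = ∑ t ∈ range l.length, f (k0 + t) (l.getD t 0) := by
  induction l generalizing k0 with
  | nil => simp [sumAux_nil]
  | cons r l ih =>
    rw [sumAux_cons, ih, List.length_cons, Finset.sum_range_succ']
    simp only [List.getD_cons_zero, List.getD_cons_succ, add_zero]
    rw [add_comm]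
    congr 1
    apply Finset.sum_congr rfl
    intro t _
    congr 1
    omega

theorem allAux_sound (p : ℕ → ℕ → Bool) (l : List ℕ) (k0 : ℕ) (h : allAux p l k0 = true) :
    ∀ t, t < l.length → p (k0 + t) (l.getD t 0) = true := by
  induction l generalizing k0 with
  | nil => intro t ht; simp at ht
  | cons r l ih =>
    rw [allAux_cons, Bool.and_eq_true] at h
    intro t ht
    cases t with
    | zero => simpa using h.1
    | succ t =>
      have := ih (k0 + 1) h.2 t (by simpa using ht)
      rw [List.getD_cons_succ]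
      have e : k0 + (t + 1) = k0 + 1 + t := by omega
      rw [e]
      exact this

theorem guard_sound (lo hi i : ℕ) (b : Bool) (h : guard lo hi i b = true) (h1 : lo ≤ i) (h2 : i < hi) :
    b = true := by
  unfold guard at h
  have e1 : Nat.blt i lo = false := by
    cases hb : Nat.blt i lo with
    | false => rfl
    | true => rw [Nat.blt_eq] at hb; omega
  have e2 : Nat.ble hi i = false := by
    cases hb : Nat.ble hi i with
    | false => rfl
    | true => rw [Nat.ble_eq] at hb; omega
  rw [e1, e2] at h
  exact h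

theorem Usum_eq (n : ℕ) : Usum n = ∑ j ∈ range n, 262144 ^ j := by
  induction n with
  | zero => rfl
  | succ n ih =>
    rw [Finset.sum_range_succ, ← ih]
    rfl

def dg (m j : ℕ) : ℕ := (m / 262144 ^ j) % 262144

theorem dg_zero (m : ℕ) : dg m 0 = m % 262144 := by simp [dg]

theorem dg_succ (m j : ℕ) : dg m (j + 1) = dg (m / 262144) j := by
  unfold dg
  rw [pow_succ', Nat.div_div_eq_div_mul]

theorem dg_lt (m j : ℕ) : dg m j < 262144 := Nat.mod_lt _ (by norm_num)

theorem digits_expand (n : ℕ) : ∀ m, m < 262144 ^ n → m = ∑ j ∈ range n, dg m j * 262144 ^ j := by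
  induction n with
  | zero => intro m hm; simp at hm; simp [hm]
  | succ n ih =>
    intro m hm
    rw [Finset.sum_range_succ']
    have h1 : m / 262144 < 262144 ^ n := by
      rw [Nat.div_lt_iff_lt_mul (by norm_num)]
      rw [pow_succ] at hm
      exact hm
    have h2 := ih (m / 262144) h1
    have h3 : ∑ j ∈ range n, dg m (j + 1) * 262144 ^ (j + 1)
        = 262144 * ∑ j ∈ range n, dg (m / 262144) j * 262144 ^ j := by
      rw [Finset.mul_sum]
      apply Finset.sum_congr rfl
      intro j _
      rw [dg_succ, pow_succ]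
      ring
    rw [h3, ← h2, dg_zero]
    simp only [pow_zero, mul_one]
    exact (Nat.div_add_mod m 262144).symm

theorem digits_unique (n : ℕ) : ∀ f g : ℕ → ℕ, (∀ j, j < n → f j < 262144) → (∀ j, j < n → g j < 262144) →
    ∑ j ∈ range n, f j * 262144 ^ j = ∑ j ∈ range n, g j * 262144 ^ j → ∀ j, j < n → f j = g j := by
  induction n with
  | zero => intro f g _ _ _ j hj; omega
  | succ n ih =>
    intro f g hf hg h j hj
    rw [Finset.sum_range_succ', Finset.sum_range_succ'] at h
    have hF : ∑ j ∈ range n, f (j + 1) * 262144 ^ (j + 1)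
        = 262144 * ∑ j ∈ range n, f (j + 1) * 262144 ^ j := by
      rw [Finset.mul_sum]
      apply Finset.sum_congr rfl
      intro j _
      rw [pow_succ]
      ring
    have hG : ∑ j ∈ range n, g (j + 1) * 262144 ^ (j + 1)
        = 262144 * ∑ j ∈ range n, g (j + 1) * 262144 ^ j := by
      rw [Finset.mul_sum]
      apply Finset.sum_congr rfl
      intro j _
      rw [pow_succ]
      ring
    rw [hF, hG] at h
    simp only [pow_zero, mul_one] at h
    have hf0 := hf 0 (by omega)
    have hg0 := hg 0 (by omega)
    have h0 : f 0 = g 0 := by omega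
    have hrest : ∑ j ∈ range n, f (j + 1) * 262144 ^ j = ∑ j ∈ range n, g (j + 1) * 262144 ^ j := by omega
    cases j with
    | zero => exact h0
    | succ j =>
      exact ih (fun j => f (j + 1)) (fun j => g (j + 1)) (fun j hj => hf (j + 1) (by omega))
        (fun j hj => hg (j + 1) (by omega)) hrest j (by omega)

end Vale.Agent.P052
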