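import Mathlib
import Vale.Agent.P052.Sound

namespace Vale.Agent.P052

open Finset

def R (i : ℕ) : ℕ := Krows.getD i 0

def K (i j : ℕ) : ℕ := dg (R i) j

theorem rowOK_spec (i Ri : ℕ) (h : rowOK i Ri = true) :
    Ri < 262144 ^ 416 ∧
    sumAux (fun k Rk => dg Ri k * Rk) Krows 0 = 96 * Ri + 3456 * Usum 416 ∧
    sumAux (fun k _ => dg Ri k) Krows 0 = 1248 ∧
    allAux (fun k Rk => Nat.ble (dg Ri k) 18 && Nat.beq (dg Ri k) (dg Rk i)) Krows 0 = true := by
  unfold rowOK at h
  simp only [rec_false_eq, Bool.and_eq_true, Nat.blt_eq, Nat.beq_eq] at h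
  exact ⟨h.1, h.2.1, h.2.2.1, h.2.2.2⟩

structure RowsGood : Prop where
  len : Krows.length = 416
  ok : ∀ i, i < 416 → rowOK i (R i) = true

namespace RowsGood

variable (hg : RowsGood)
include hg

theorem R_lt (i : ℕ) (hi : i < 416) : R i < 262144 ^ 416 := (rowOK_spec _ _ (hg.ok i hi)).1

theorem K_le (i k : ℕ) (hi : i < 416) (hk : k < 416) : K i k ≤ 18 := by
  have h := (rowOK_spec _ _ (hg.ok i hi)).2.2.2
  have := allAux_sound _ _ _ h k (by rw [hg.len]; exact hk)
  simp only [Bool.and_eq_true, Nat.ble_eq, Nat.beq_eq, zero_add] at this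
  exact this.1

theorem K_symm (i k : ℕ) (hi : i < 416) (hk : k < 416) : K i k = K k i := by
  have h := (rowOK_spec _ _ (hg.ok i hi)).2.2.2
  have := allAux_sound _ _ _ h k (by rw [hg.len]; exact hk)
  simp only [Bool.and_eq_true, Nat.ble_eq, Nat.beq_eq, zero_add] at this
  exact this.2

theorem K_rowsum (i : ℕ) (hi : i < 416) : ∑ k ∈ range 416, K i k = 1248 := by
  have h := (rowOK_spec _ _ (hg.ok i hi)).2.2.1
  rw [sumAux_eq, hg.len] at h
  simp only [zero_add] at h
  exact h

theorem K_colsum (j : ℕ) (hj : j < 416) : ∑ k ∈ range 416, K k j = 1248 := by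
  rw [← hg.K_rowsum j hj]
  apply Finset.sum_congr rfl
  intro k hk
  exact hg.K_symm k j (Finset.mem_range.mp hk) hj

theorem R_expand (k : ℕ) (hk : k < 416) : R k = ∑ j ∈ range 416, K k j * 262144 ^ j :=
  digits_expand 416 (R k) (hg.R_lt k hk)

theorem K_sq (i j : ℕ) (hi : i < 416) (hj : j < 416) :
    ∑ k ∈ range 416, K i k * K k j = 96 * K i j + 3456 := by
  have h := (rowOK_spec _ _ (hg.ok i hi)).2.1
  rw [sumAux_eq, hg.len, Usum_eq] at h
  simp only [zero_add] at h
  have hL : ∑ k ∈ range 416, dg (R i) k * Krows.getD k 0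
      = ∑ j ∈ range 416, (∑ k ∈ range 416, K i k * K k j) * 262144 ^ j := by
    have : ∀ k ∈ range 416, dg (R i) k * Krows.getD k 0
        = ∑ j ∈ range 416, K i k * K k j * 262144 ^ j := by
      intro k hk
      have e : Krows.getD k 0 = R k := rfl
      rw [e, hg.R_expand k (Finset.mem_range.mp hk), Finset.mul_sum]
      apply Finset.sum_congr rfl
      intro j _
      change K i k * (K k j * 262144 ^ j) = _
      ring
    rw [Finset.sum_congr rfl this, Finset.sum_comm]
    apply Finset.sum_congr rfl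
    intro j _
    rw [Finset.sum_mul]
  have hRr : 96 * R i + 3456 * ∑ j ∈ range 416, 262144 ^ j
      = ∑ j ∈ range 416, (96 * K i j + 3456) * 262144 ^ j := by
    rw [hg.R_expand i hi, Finset.mul_sum, Finset.mul_sum, ← Finset.sum_add_distrib]
    apply Finset.sum_congr rfl
    intro j _
    ring
  rw [hL, hRr] at h
  refine digits_unique 416 _ _ ?_ ?_ h j hj
  · intro j hj
    have : ∑ k ∈ range 416, K i k * K k j ≤ ∑ k ∈ range 416, 18 * 18 := by
      apply Finset.sum_le_sum
      intro k hk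
      exact Nat.mul_le_mul (hg.K_le i k hi (Finset.mem_range.mp hk)) (hg.K_le k j (Finset.mem_range.mp hk) hj)
    simp at this
    omega
  · intro j hj
    have := hg.K_le i j hi hj
    omega

end RowsGood

end Vale.Agent.P052
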