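import Mathlib
import Vale.Agent.P052.RowFacts

namespace Vale.Agent.P052

open Finset

theorem rec_true_eq (x b : Bool) : (Bool.rec (motive := fun _ => Bool) x true b) = (b || x) := by
  cases b <;> rfl

theorem geoOK_spec (i Ri : ℕ) (h : geoOK i Ri = true) :
    dg Ri i = (Bool.rec (motive := fun _ => ℕ) 18 16 (Nat.beq i 320)) ∧
    allAux (fun k _ => Nat.ble 321 k || (Nat.beq k i || Nat.ble 2 (dg Ri k))) Krows 0 = true := by
  unfold geoOK at h
  simp only [rec_false_eq, rec_true_eq, Bool.and_eq_true, Nat.beq_eq] at h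
  exact ⟨h.1, h.2⟩

theorem K_diag_of_geo (i : ℕ) (h : geoOK i (R i) = true) (hi : i < 320) : K i i = 18 := by
  have h1 := (geoOK_spec _ _ h).1
  have e : Nat.beq i 320 = false := by
    cases hb : Nat.beq i 320 with
    | false => rfl
    | true => rw [Nat.beq_eq] at hb; omega
  rw [e] at h1
  exact h1

theorem K_diag_last (h : geoOK 320 (R 320) = true) : K 320 320 = 16 := (geoOK_spec _ _ h).1

theorem K_ge_of_geo (hlen : Krows.length = 416) (i k : ℕ) (h : geoOK i (R i) = true) (hk : k < 321)
    (hne : k ≠ i) : 2 ≤ K i k := by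
  have h2 := (geoOK_spec _ _ h).2
  have := allAux_sound _ _ _ h2 k (by rw [hlen]; omega)
  simp only [Bool.or_eq_true, Nat.ble_eq, Nat.beq_eq, zero_add] at this
  rcases this with h | h | h
  · omega
  · exact absurd h hne
  · exact h

theorem trace_of_chk (hlen : Krows.length = 416) (h : traceChk = true) :
    ∑ i ∈ range 416, K i i = 7296 := by
  unfold traceChk at h
  rw [Nat.beq_eq, sumAux_eq, hlen] at h
  simp only [zero_add] at h
  exact h

end Vale.Agent.P052
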