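import Mathlib
import Vale.Agent.P052.GeoFacts

namespace Vale.Agent.P052

open Finset

def tst (m : ℕ) (w : ℕ × ℕ) : Bool := Nat.ble 3 (dg m w.1)

theorem filtK_nil (m : ℕ) (c : List (ℕ × ℕ) → Bool) : filtK m [] c = c [] := rfl

theorem filtK_cons (m : ℕ) (w : ℕ × ℕ) (l : List (ℕ × ℕ)) (c : List (ℕ × ℕ) → Bool) :
    filtK m (w :: l) c =
      Bool.rec (motive := fun _ => Bool) (filtK m l c) (filtK m l (fun l' => c (w :: l'))) (tst m w) := rfl

theorem filtK_eq (m : ℕ) (l : List (ℕ × ℕ)) : ∀ c : List (ℕ × ℕ) → Bool,
    filtK m l c = c (l.filter (tst m)) := by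
  induction l with
  | nil => intro c; rfl
  | cons w l ih =>
    intro c
    rw [filtK_cons]
    cases h : tst m w with
    | false =>
      rw [List.filter_cons_of_neg (by simp [h])]
      exact ih c
    | true =>
      rw [List.filter_cons_of_pos (by simp [h])]
      exact ih _

theorem stepClq_nil (prev : List (ℕ × ℕ) → Bool) : stepClq prev [] = true := rfl

theorem stepClq_cons (prev : List (ℕ × ℕ) → Bool) (v : ℕ × ℕ) (rest : List (ℕ × ℕ)) :
    stepClq prev (v :: rest) = (prev (rest.filter (tst v.2)) && stepClq prev rest) := by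
  change (Bool.rec (motive := fun _ => Bool) false (stepClq prev rest) (filtK v.2 rest prev)) = _
  rw [rec_false_eq, filtK_eq]

theorem noClq_zero : noClq 0 = fun _ => false := rfl

theorem noClq_succ (k : ℕ) : noClq (k + 1) = stepClq (noClq k) := rfl

def adjR (v w : ℕ × ℕ) : Prop := 3 ≤ dg v.2 w.1

theorem noClq_sound (k : ℕ) : ∀ L, noClq k L = true → ∀ l : List (ℕ × ℕ), l.Sublist L → l.length = k →
    ¬ l.Pairwise adjR := by
  induction k with
  | zero => intro L h; rw [noClq_zero] at h; exact absurd h (by simp)
  | succ k ih =>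
    intro L
    rw [noClq_succ]
    induction L with
    | nil =>
      intro _ l hl hlen
      have : l = [] := List.sublist_nil.mp hl
      subst this
      simp at hlen
    | cons v rest ihL =>
      intro h l hl hlen hp
      rw [stepClq_cons, Bool.and_eq_true] at h
      rcases List.sublist_cons_iff.mp hl with hl' | ⟨r, rfl, hr⟩
      · exact ihL h.2 l hl' hlen hp
      · rw [List.pairwise_cons] at hp
        have hfil : r.filter (tst v.2) = r := by
          rw [List.filter_eq_self]
          intro b hb
          have := hp.1 b hb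
          unfold adjR at this
          unfold tst
          rw [Nat.ble_eq]
          exact this
        have hsub : r.Sublist (rest.filter (tst v.2)) := by
          rw [← hfil]
          exact hr.filter _
        exact ih _ h.1 r hsub (by simpa using hlen) hp.2

theorem guard_eq (lo hi i : ℕ) (b : Bool) : guard lo hi i b = (Nat.blt i lo || (Nat.ble hi i || b)) := by
  unfold guard
  rw [rec_true_eq, rec_true_eq]

theorem guard_merge (lo mid hi i : ℕ) (b : Bool) (h1 : guard lo mid i b = true)
    (h2 : guard mid hi i b = true) : guard lo hi i b = true := by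
  rw [guard_eq] at *
  simp only [Bool.or_eq_true, Nat.blt_eq, Nat.ble_eq] at *
  rcases h1 with h | h | h
  · exact Or.inl h
  · rcases h2 with h' | h' | h'
    · omega
    · exact Or.inr (Or.inl h')
    · exact Or.inr (Or.inr h')
  · exact Or.inr (Or.inr h)

theorem stepG_nil (lo hi : ℕ) (prev : List (ℕ × ℕ) → Bool) : stepG lo hi prev [] = true := rfl

theorem stepG_cons (lo hi : ℕ) (prev : List (ℕ × ℕ) → Bool) (v : ℕ × ℕ) (rest : List (ℕ × ℕ)) :
    stepG lo hi prev (v :: rest) =
      (guard lo hi v.1 (prev (rest.filter (tst v.2))) && stepG lo hi prev rest) := by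
  change (Bool.rec (motive := fun _ => Bool) false (stepG lo hi prev rest)
    (guard lo hi v.1 (filtK v.2 rest prev))) = _
  rw [rec_false_eq, filtK_eq]

theorem stepG_merge (lo mid hi : ℕ) (prev : List (ℕ × ℕ) → Bool) (l : List (ℕ × ℕ))
    (h1 : stepG lo mid prev l = true) (h2 : stepG mid hi prev l = true) : stepG lo hi prev l = true := by
  induction l with
  | nil => rfl
  | cons v rest ih =>
    rw [stepG_cons, Bool.and_eq_true] at *
    exact ⟨guard_merge lo mid hi _ _ h1.1 h2.1, ih h1.2 h2.2⟩

theorem stepClq_of_stepG (hi : ℕ) (prev : List (ℕ × ℕ) → Bool) (l : List (ℕ × ℕ))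
    (h : stepG 0 hi prev l = true) (hall : ∀ v ∈ l, v.1 < hi) : stepClq prev l = true := by
  induction l with
  | nil => rfl
  | cons v rest ih =>
    rw [stepG_cons, Bool.and_eq_true] at h
    rw [stepClq_cons, Bool.and_eq_true]
    refine ⟨guard_sound 0 hi v.1 _ h.1 (Nat.zero_le _) (hall v (by simp)), ih h.2 ?_⟩
    intro w hw
    exact hall w (by simp [hw])

def zipI : List ℕ → ℕ → List (ℕ × ℕ)
  | [], _ => []
  | r :: rest, k => (k, r) :: zipI rest (k + 1)

theorem zipIdxK_eq (l : List ℕ) : ∀ (k : ℕ) (c : List (ℕ × ℕ) → Bool), zipIdxK l k c = c (zipI l k) := by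
  induction l with
  | nil => intro k c; rfl
  | cons r l ih =>
    intro k c
    cases k with
    | zero => exact ih 1 _
    | succ k => exact ih (k + 2) _

theorem zipI_length (l : List ℕ) : ∀ k, (zipI l k).length = l.length := by
  induction l with
  | nil => intro k; rfl
  | cons r l ih => intro k; simp [zipI, ih]

theorem zipI_getD (l : List ℕ) : ∀ k t, t < l.length → (zipI l k).getD t (0, 0) = (k + t, l.getD t 0) := by
  induction l with
  | nil => intro k t ht; simp at ht
  | cons r l ih =>
    intro k t ht
    cases t with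
    | zero => simp [zipI]
    | succ t =>
      simp only [zipI, List.getD_cons_succ]
      rw [ih (k + 1) t (by simpa using ht)]
      congr 1
      omega

def L1 : List (ℕ × ℕ) := zipI (Krows.take 321) 0

theorem clqChk_eq (lo hi : ℕ) : clqChk lo hi = stepG lo hi (noClq 5) L1 := by
  unfold clqChk
  rw [zipIdxK_eq]
  rfl

theorem clqChk_merge (lo mid hi : ℕ) (h1 : clqChk lo mid = true) (h2 : clqChk mid hi = true) :
    clqChk lo hi = true := by
  rw [clqChk_eq] at *
  exact stepG_merge lo mid hi _ _ h1 h2

end Vale.Agent.P052
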