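import Mathlib
import Vale.Agent.P052.ClqSound

namespace Vale.Agent.P052

open Finset

theorem no_six_aux (L : List (ℕ × ℕ)) (Rf : ℕ → ℕ) (hL : L.length = 321)
    (hget : ∀ t (ht : t < L.length), L[t] = (t, Rf t)) (hno : noClq 6 L = true)
    (s : Finset (Fin 321)) (hs : 5 < s.card) : ∃ a ∈ s, ∃ b ∈ s, a ≠ b ∧ dg (Rf a) b < 3 := by
  by_contra hcon
  have hcon' : ∀ a ∈ s, ∀ b ∈ s, a ≠ b → 3 ≤ dg (Rf a) b := by
    intro a ha b hb hab
    by_contra hlt
    exact hcon ⟨a, ha, b, hb, hab, by omega⟩
  obtain ⟨t, hts, htc⟩ := Finset.exists_subset_card_eq (s := s) (n := 6) (by omega)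
  set srt : List (Fin 321) := t.sort (fun a b => a ≤ b) with hsrt
  have hsrtP : srt.Pairwise (fun a b => a < b) := (Finset.sortedLT_sort t).pairwise
  set is : List (Fin L.length) := srt.map (Fin.cast hL.symm) with his
  have hisP : is.Pairwise (fun a b => a < b) := by
    rw [his, List.pairwise_map]
    exact hsrtP.imp (fun {a b} hab => by simpa using hab)
  have hsub := List.map_getElem_sublist hisP
  refine noClq_sound 6 L hno _ hsub ?_ ?_
  · rw [List.length_map, his, List.length_map, hsrt, Finset.length_sort, htc]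
  · rw [List.pairwise_map, his, List.pairwise_map]
    have hmem : ∀ a ∈ srt, a ∈ s := by
      intro a ha
      rw [hsrt, Finset.mem_sort] at ha
      exact hts ha
    have : srt.Pairwise (fun a b => a ∈ s ∧ b ∈ s ∧ a < b) := by
      rw [List.pairwise_iff_getElem] at hsrtP ⊢
      intro i j hi hj hij
      exact ⟨hmem _ (List.getElem_mem hi), hmem _ (List.getElem_mem hj), hsrtP i j hi hj hij⟩
    refine this.imp ?_
    rintro a b ⟨ha, hb, hab⟩
    unfold adjR
    simp only [Fin.getElem_fin, Fin.val_cast]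
    rw [hget, hget]
    exact hcon' a ha b hb (ne_of_lt hab)

theorem L1_length (hlen : Krows.length = 416) : L1.length = 321 := by
  unfold L1
  rw [zipI_length, List.length_take, hlen]
  rfl

theorem L1_getD (hlen : Krows.length = 416) (t : ℕ) (ht : t < 321) : L1.getD t (0, 0) = (t, R t) := by
  unfold L1
  rw [zipI_getD _ _ _ (by rw [List.length_take, hlen]; omega)]
  have : (Krows.take 321).getD t 0 = Krows.getD t 0 := by
    simp [List.getD_eq_getElem?_getD, ht]
  rw [this, zero_add]
  rfl

theorem L1_getElem (hlen : Krows.length = 416) (t : ℕ) (ht : t < L1.length) : L1[t] = (t, R t) := by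
  rw [← List.getD_eq_getElem L1 (0, 0) ht]
  exact L1_getD hlen t (by rw [L1_length hlen] at ht; exact ht)

theorem L1_fst_lt (hlen : Krows.length = 416) : ∀ v ∈ L1, v.1 < 321 := by
  intro v hv
  obtain ⟨t, ht, rfl⟩ := List.mem_iff_getElem.mp hv
  rw [L1_getElem hlen t ht]
  rw [L1_length hlen] at ht
  exact ht

theorem no_six (hlen : Krows.length = 416) (h : clqChk 0 321 = true) (s : Finset (Fin 321))
    (hs : 5 < s.card) : ∃ a ∈ s, ∃ b ∈ s, a ≠ b ∧ K a b < 3 := by
  have hno : noClq 6 L1 = true := by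
    rw [noClq_succ]
    rw [clqChk_eq] at h
    exact stepClq_of_stepG 321 _ _ h (L1_fst_lt hlen)
  exact no_six_aux L1 R (L1_length hlen) (L1_getElem hlen) hno s hs

end Vale.Agent.P052
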