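import Mathlib

namespace Vale.Agent.P052

open Module

theorem exists_gram_vectors {n r : ℕ} (H : Matrix (Fin n) (Fin n) ℝ) (c : ℝ) (hc : c ≠ 0)
    (hsymm : H.transpose = H) (hsq : H * H = c • H) (htr : H.trace = c * r) :
    ∃ v : Fin n → EuclideanSpace ℝ (Fin r), ∀ i j, inner ℝ (v i) (v j) = c * H i j := by
  classical
  set E : Matrix (Fin n) (Fin n) ℝ := c⁻¹ • H with hE
  have hEE : E * E = E := by
    rw [hE, Matrix.smul_mul, Matrix.mul_smul, hsq, smul_smul, smul_smul]
    congr 1
    field_simp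
  set T : EuclideanSpace ℝ (Fin n) →ₗ[ℝ] EuclideanSpace ℝ (Fin n) := Matrix.toEuclideanLin E with hT
  have hTT : ∀ y, T (T y) = T y := by
    intro y
    have : T ∘ₗ T = T := by
      rw [hT, Matrix.toEuclideanLin_eq_toLin_orthonormal, ← Matrix.toLin_mul, hEE]
    exact congrArg (fun f => f y) this
  set S : Submodule ℝ (EuclideanSpace ℝ (Fin n)) := LinearMap.range T with hS
  have hproj : LinearMap.IsProj S T :=
    ⟨fun x => LinearMap.mem_range_self T x, fun x hx => by
      obtain ⟨y, rfl⟩ := hx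
      exact hTT y⟩
  have htrT : LinearMap.trace ℝ _ T = E.trace := by
    rw [hT, Matrix.toEuclideanLin_eq_toLin_orthonormal, Matrix.trace_toLin_eq]
  have hfin : finrank ℝ S = r := by
    have h1 := hproj.trace
    rw [htrT, hE, Matrix.trace_smul, htr, smul_eq_mul, ← mul_assoc, inv_mul_cancel₀ hc, one_mul] at h1
    exact_mod_cast h1.symm
  let b : OrthonormalBasis (Fin r) ℝ S := (stdOrthonormalBasis ℝ S).reindex (finCongr hfin)
  have hmem : ∀ i, Matrix.toEuclideanLin H (EuclideanSpace.single i (1 : ℝ)) ∈ S := by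
    intro i
    refine ⟨c • EuclideanSpace.single i (1 : ℝ), ?_⟩
    rw [hT, hE, map_smul, map_smul, LinearMap.smul_apply, smul_smul, mul_inv_cancel₀ hc, one_smul]
  refine ⟨fun i => b.repr ⟨_, hmem i⟩, fun i j => ?_⟩
  rw [LinearIsometryEquiv.inner_map_map, Submodule.coe_inner]
  have hcol : ∀ i, Matrix.toEuclideanLin H (EuclideanSpace.single i (1 : ℝ)) = WithLp.toLp 2 (H.transpose i) := by
    intro i
    ext k
    simp [Matrix.toLpLin_apply, Matrix.transpose_apply]
  change inner ℝ (Matrix.toEuclideanLin H (EuclideanSpace.single i (1 : ℝ)))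
    (Matrix.toEuclideanLin H (EuclideanSpace.single j (1 : ℝ))) = c * H i j
  rw [hcol, hcol, inner_matrix_col_col]
  have : H.conjTranspose = H := by
    rw [Matrix.conjTranspose_eq_transpose_of_trivial, hsymm]
  rw [this, hsq, Matrix.smul_apply, smul_eq_mul]

end Vale.Agent.P052
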