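import Mathlib

namespace Vale.Agent.P052

theorem parts_lower_bound {E : Type*} [MetricSpace E] {N : ℕ} (p : Fin N → E) (D : ℝ)
    (far : Fin N → Fin N → Prop)
    (hle : ∀ a b, dist (p a) (p b) ≤ D)
    (hfar : ∀ a b, far a b → dist (p a) (p b) = D)
    (w : ℕ) (hclq : ∀ s : Finset (Fin N), w < s.card → ∃ a ∈ s, ∃ b ∈ s, far a b)
    (n : ℕ) (P : Fin n → Set E) (hcov : Set.range p = ⋃ k, P k)
    (hdiam : ∀ k, Metric.diam (P k) < Metric.diam (Set.range p)) :
    N ≤ n * w := by
  classical
  by_contra hlt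
  rw [not_le] at hlt
  have hbdd : Bornology.IsBounded (Set.range p) := (Set.finite_range p).isBounded
  have hD0 : 0 ≤ D := by
    by_contra hneg
    rw [not_le] at hneg
    have hN : 0 < N := by omega
    have := hle ⟨0, hN⟩ ⟨0, hN⟩
    rw [dist_self] at this
    linarith
  have hdle : Metric.diam (Set.range p) ≤ D := by
    apply Metric.diam_le_of_forall_dist_le hD0
    rintro _ ⟨a, rfl⟩ _ ⟨b, rfl⟩
    exact hle a b
  have hmem : ∀ a, ∃ k, p a ∈ P k := by
    intro a
    have : p a ∈ ⋃ k, P k := hcov ▸ Set.mem_range_self a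
    simpa using this
  choose f hf using hmem
  have hcard : Fintype.card (Fin n) * w < Fintype.card (Fin N) := by
    simpa using hlt
  obtain ⟨k, hk⟩ := Fintype.exists_lt_card_fiber_of_mul_lt_card f hcard
  obtain ⟨a, ha, b, hb, hab⟩ := hclq _ hk
  simp only [Finset.mem_filter, Finset.mem_univ, true_and] at ha hb
  have hsub : P k ⊆ Set.range p := by
    rw [hcov]
    exact Set.subset_iUnion P k
  have hbk : Bornology.IsBounded (P k) := hbdd.subset hsub
  have h1 : dist (p a) (p b) ≤ Metric.diam (P k) :=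
    Metric.dist_le_diam_of_mem hbk (ha ▸ hf a) (hb ▸ hf b)
  rw [hfar a b hab] at h1
  have := hdiam k
  linarith

theorem diam_range_eq {E : Type*} [MetricSpace E] {N : ℕ} (p : Fin N → E) (D : ℝ) (hD0 : 0 ≤ D)
    (hle : ∀ a b, dist (p a) (p b) ≤ D) (a b : Fin N) (hab : dist (p a) (p b) = D) :
    Metric.diam (Set.range p) = D := by
  have hbdd : Bornology.IsBounded (Set.range p) := (Set.finite_range p).isBounded
  apply le_antisymm
  · apply Metric.diam_le_of_forall_dist_le hD0
    rintro _ ⟨a, rfl⟩ _ ⟨b, rfl⟩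
    exact hle a b
  · rw [← hab]
    exact Metric.dist_le_diam_of_mem hbdd (Set.mem_range_self a) (Set.mem_range_self b)

end Vale.Agent.P052
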