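import Mathlib
import Vale.Agent.P052.ClqFinal
import Vale.Agent.P052.Gram
import Vale.Agent.P052.Pigeon

namespace Vale.Agent.P052

open Finset

structure AllChecks : Prop where
  rows : RowsGood
  geo : ∀ i, i < 321 → geoOK i (R i) = true
  tr : traceChk = true
  clq : clqChk 0 321 = true

noncomputable def Hm : Matrix (Fin 416) (Fin 416) ℝ := fun i j => (K i j : ℝ) - 3

theorem Hm_symm (hg : RowsGood) : Hm.transpose = Hm := by
  ext i j
  simp only [Matrix.transpose_apply, Hm]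
  rw [hg.K_symm j i j.isLt i.isLt]

theorem Hm_sq (hg : RowsGood) : Hm * Hm = (96 : ℝ) • Hm := by
  ext i j
  rw [Matrix.mul_apply, Matrix.smul_apply, smul_eq_mul]
  simp only [Hm]
  rw [Fin.sum_univ_eq_sum_range (fun k => ((K i k : ℝ) - 3) * ((K k j : ℝ) - 3)) 416]
  have h : ∀ k ∈ range 416, ((K i k : ℝ) - 3) * ((K k j : ℝ) - 3)
      = (K i k : ℝ) * (K k j : ℝ) - 3 * (K i k : ℝ) - 3 * (K k j : ℝ) + 9 := by
    intro k _
    ring
  rw [Finset.sum_congr rfl h, Finset.sum_add_distrib, Finset.sum_sub_distrib, Finset.sum_sub_distrib,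
    ← Finset.mul_sum, ← Finset.mul_sum, Finset.sum_const, Finset.card_range]
  have h1 := congrArg (Nat.cast : ℕ → ℝ) (hg.K_sq i j i.isLt j.isLt)
  have h2 := congrArg (Nat.cast : ℕ → ℝ) (hg.K_rowsum i i.isLt)
  have h3 := congrArg (Nat.cast : ℕ → ℝ) (hg.K_colsum j j.isLt)
  push_cast at h1 h2 h3
  rw [h1, h2, h3]
  simp only [nsmul_eq_mul]
  norm_num
  ring

theorem Hm_trace (hg : RowsGood) (htr : traceChk = true) : Hm.trace = (96 : ℝ) * ((63 : ℕ) : ℝ) := by
  unfold Matrix.trace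
  simp only [Matrix.diag_apply, Hm]
  rw [Fin.sum_univ_eq_sum_range (fun k => ((K k k : ℝ) - 3)) 416, Finset.sum_sub_distrib,
    Finset.sum_const, Finset.card_range]
  have h1 := congrArg (Nat.cast : ℕ → ℝ) (trace_of_chk hg.len htr)
  push_cast at h1
  rw [h1]
  norm_num

noncomputable def lam : ℝ := (Real.sqrt 222 - 1) / 13

theorem lam_pos : 0 < lam := by
  unfold lam
  have : (1 : ℝ) < Real.sqrt 222 := by
    rw [Real.lt_sqrt (by norm_num)]
    norm_num
  linarith [this]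

theorem lam_eq : 13 * lam ^ 2 + 2 * lam = 17 := by
  unfold lam
  have h : Real.sqrt 222 ^ 2 = 222 := Real.sq_sqrt (by norm_num)
  field_simp
  nlinarith [h]

abbrev E63 := EuclideanSpace ℝ (Fin 63)

theorem sq_dist_formula (v : Fin 416 → E63) (hv : ∀ i j, inner ℝ (v i) (v j) = 96 * Hm i j)
    (s t : ℝ) (i j : Fin 416) :
    ‖s • v i - t • v j‖ ^ 2 = 96 * (s ^ 2 * Hm i i - 2 * s * t * Hm i j + t ^ 2 * Hm j j) := by
  rw [norm_sub_sq_real, ← real_inner_self_eq_norm_sq, ← real_inner_self_eq_norm_sq]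
  simp only [inner_smul_left, inner_smul_right, hv]
  simp
  ring

def emb (a : Fin 321) : Fin 416 := Fin.castLE (by norm_num) a

noncomputable def sc (a : Fin 321) : ℝ := if (a : ℕ) = 320 then lam else 1

theorem pair_formula (hc : AllChecks) (v : Fin 416 → E63)
    (hv : ∀ i j, inner ℝ (v i) (v j) = 96 * Hm i j) (a b : Fin 321) (hab : a ≠ b) :
    ∃ c : ℝ, 0 ≤ c ∧
      ‖sc a • v (emb a) - sc b • v (emb b)‖ ^ 2 = 3072 - c * ((K a b : ℝ) - 2) := by
  rw [sq_dist_formula v hv]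
  have hne : (a : ℕ) ≠ (b : ℕ) := fun h => hab (Fin.ext h)
  have hH : ∀ x y : Fin 321, Hm (emb x) (emb y) = (K x y : ℝ) - 3 := fun x y => rfl
  have hd : ∀ x : Fin 321, (x : ℕ) ≠ 320 → (K x x : ℝ) = 18 := by
    intro x hx
    have : K x x = 18 := K_diag_of_geo x (hc.geo x x.isLt) (by have := x.isLt; omega)
    rw [this]
    norm_num
  have hl : (K 320 320 : ℝ) = 16 := by
    have : K 320 320 = 16 := K_diag_last (hc.geo 320 (by norm_num))
    rw [this]
    norm_num
  rw [hH, hH, hH]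
  have hlam := lam_eq
  have hpos := lam_pos
  by_cases ha : (a : ℕ) = 320
  · have hb : (b : ℕ) ≠ 320 := fun h => hne (ha.trans h.symm)
    refine ⟨192 * lam, by positivity, ?_⟩
    simp only [sc, ha, hb, if_true, if_false]
    rw [hd b hb, hl]
    nlinarith [hlam]
  · by_cases hb : (b : ℕ) = 320
    · refine ⟨192 * lam, by positivity, ?_⟩
      simp only [sc, ha, hb, if_true, if_false]
      rw [hd a ha, hl]
      nlinarith [hlam]
    · refine ⟨192, by norm_num, ?_⟩
      simp only [sc, ha, hb, if_false]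
      rw [hd a ha, hd b hb]
      ring

theorem borsuk63_of_checks (hc : AllChecks) :
    ∃ Y : Set E63, Y.Finite ∧ 0 < Metric.diam Y ∧
      ∀ (n : ℕ) (P : Fin n → Set E63), Y = ⋃ k, P k →
        (∀ k, Metric.diam (P k) < Metric.diam Y) → 65 ≤ n := by
  obtain ⟨v, hv⟩ := exists_gram_vectors Hm 96 (by norm_num) (Hm_symm hc.rows) (Hm_sq hc.rows)
    (Hm_trace hc.rows hc.tr)
  set p : Fin 321 → E63 := fun a => sc a • v (emb a) with hp
  set D : ℝ := Real.sqrt 3072 with hD
  have hDpos : 0 < D := Real.sqrt_pos.mpr (by norm_num)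
  have hK2 : ∀ a b : Fin 321, a ≠ b → 2 ≤ K a b := by
    intro a b hab
    exact K_ge_of_geo hc.rows.len a b (hc.geo a a.isLt) b.isLt (fun h => hab (Fin.ext h.symm))
  have hle : ∀ a b, dist (p a) (p b) ≤ D := by
    intro a b
    by_cases hab : a = b
    · rw [hab, dist_self]
      exact hDpos.le
    · obtain ⟨c, hc0, hcf⟩ := pair_formula hc v hv a b hab
      rw [dist_eq_norm, hD]
      apply Real.le_sqrt_of_sq_le
      rw [hcf]
      have : (2 : ℝ) ≤ (K a b : ℝ) := by exact_mod_cast hK2 a b hab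
      nlinarith
  have hfar : ∀ a b : Fin 321, (a ≠ b ∧ K a b = 2) → dist (p a) (p b) = D := by
    rintro a b ⟨hab, hk⟩
    obtain ⟨c, hc0, hcf⟩ := pair_formula hc v hv a b hab
    rw [dist_eq_norm, hD, ← Real.sqrt_sq (norm_nonneg (p a - p b))]
    congr 1
    rw [hcf, hk]
    norm_num
  have hclq : ∀ s : Finset (Fin 321), 5 < s.card → ∃ a ∈ s, ∃ b ∈ s, (a ≠ b ∧ K a b = 2) := by
    intro s hs
    obtain ⟨a, ha, b, hb, hab, hk⟩ := no_six hc.rows.len hc.clq s hs
    have := hK2 a b hab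
    exact ⟨a, ha, b, hb, hab, by omega⟩
  obtain ⟨a0, _, b0, _, hab0⟩ := hclq Finset.univ (by simp)
  have hdiam : Metric.diam (Set.range p) = D :=
    diam_range_eq p D hDpos.le hle a0 b0 (hfar a0 b0 hab0)
  refine ⟨Set.range p, Set.finite_range p, by rw [hdiam]; exact hDpos, ?_⟩
  intro n P hcov hsmall
  have := parts_lower_bound p D (fun a b => a ≠ b ∧ K a b = 2) hle hfar 5 hclq n P hcov hsmall
  omega

end Vale.Agent.P052
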