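import Mathlib
import Vale.Agent.P052.Main
import Vale.Agent.P052.ChkRowsA
import Vale.Agent.P052.ChkRowsB
import Vale.Agent.P052.ChkRowsC
import Vale.Agent.P052.ChkRowsD
import Vale.Agent.P052.ChkGeo
import Vale.Agent.P052.ChkClqA
import Vale.Agent.P052.ChkClqB
import Vale.Agent.P052.ChkClqC
import Vale.Agent.P052.ChkClqD

namespace Vale.Agent.P052

def RG (Q : ℕ → ℕ → Bool) (lo hi : ℕ) : Prop := ∀ i, lo ≤ i → i < hi → i < 416 → Q i (R i) = true

theorem RG.trans {Q : ℕ → ℕ → Bool} {a b c : ℕ} (h1 : RG Q a b) (h2 : RG Q b c) : RG Q a c := by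
  intro i hi1 hi2 hi3
  by_cases h : i < b
  · exact h1 i hi1 h hi3
  · exact h2 i (by omega) hi2 hi3

theorem RG_rows (lo hi : ℕ) (h : rowsChk lo hi = true) : RG rowOK lo hi := by
  intro i h1 h2 h3
  have := allAux_sound _ _ _ h i (by rw [Krows_len]; exact h3)
  simp only [zero_add] at this
  exact guard_sound lo hi i _ this h1 h2

theorem RG_geo (lo hi : ℕ) (h : geoChk lo hi = true) : RG geoOK lo hi := by
  intro i h1 h2 h3
  have := allAux_sound _ _ _ h i (by rw [Krows_len]; exact h3)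
  simp only [zero_add] at this
  exact guard_sound lo hi i _ this h1 h2

theorem rows_all : RG rowOK 0 416 :=
  (RG_rows 0 8 rows_0_8)
  |>.trans (RG_rows 8 16 rows_8_16)
  |>.trans (RG_rows 16 24 rows_16_24)
  |>.trans (RG_rows 24 32 rows_24_32)
  |>.trans (RG_rows 32 40 rows_32_40)
  |>.trans (RG_rows 40 48 rows_40_48)
  |>.trans (RG_rows 48 56 rows_48_56)
  |>.trans (RG_rows 56 64 rows_56_64)
  |>.trans (RG_rows 64 72 rows_64_72)
  |>.trans (RG_rows 72 80 rows_72_80)
  |>.trans (RG_rows 80 88 rows_80_88)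
  |>.trans (RG_rows 88 96 rows_88_96)
  |>.trans (RG_rows 96 104 rows_96_104)
  |>.trans (RG_rows 104 112 rows_104_112)
  |>.trans (RG_rows 112 120 rows_112_120)
  |>.trans (RG_rows 120 128 rows_120_128)
  |>.trans (RG_rows 128 136 rows_128_136)
  |>.trans (RG_rows 136 144 rows_136_144)
  |>.trans (RG_rows 144 152 rows_144_152)
  |>.trans (RG_rows 152 160 rows_152_160)
  |>.trans (RG_rows 160 168 rows_160_168)
  |>.trans (RG_rows 168 176 rows_168_176)
  |>.trans (RG_rows 176 184 rows_176_184)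
  |>.trans (RG_rows 184 192 rows_184_192)
  |>.trans (RG_rows 192 200 rows_192_200)
  |>.trans (RG_rows 200 208 rows_200_208)
  |>.trans (RG_rows 208 216 rows_208_216)
  |>.trans (RG_rows 216 224 rows_216_224)
  |>.trans (RG_rows 224 232 rows_224_232)
  |>.trans (RG_rows 232 240 rows_232_240)
  |>.trans (RG_rows 240 248 rows_240_248)
  |>.trans (RG_rows 248 256 rows_248_256)
  |>.trans (RG_rows 256 264 rows_256_264)
  |>.trans (RG_rows 264 272 rows_264_272)
  |>.trans (RG_rows 272 280 rows_272_280)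
  |>.trans (RG_rows 280 288 rows_280_288)
  |>.trans (RG_rows 288 296 rows_288_296)
  |>.trans (RG_rows 296 304 rows_296_304)
  |>.trans (RG_rows 304 312 rows_304_312)
  |>.trans (RG_rows 312 320 rows_312_320)
  |>.trans (RG_rows 320 328 rows_320_328)
  |>.trans (RG_rows 328 336 rows_328_336)
  |>.trans (RG_rows 336 344 rows_336_344)
  |>.trans (RG_rows 344 352 rows_344_352)
  |>.trans (RG_rows 352 360 rows_352_360)
  |>.trans (RG_rows 360 368 rows_360_368)
  |>.trans (RG_rows 368 376 rows_368_376)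
  |>.trans (RG_rows 376 384 rows_376_384)
  |>.trans (RG_rows 384 392 rows_384_392)
  |>.trans (RG_rows 392 400 rows_392_400)
  |>.trans (RG_rows 400 408 rows_400_408)
  |>.trans (RG_rows 408 416 rows_408_416)

theorem geo_all : RG geoOK 0 321 :=
  (RG_geo 0 32 geo_0_32)
  |>.trans (RG_geo 32 64 geo_32_64)
  |>.trans (RG_geo 64 96 geo_64_96)
  |>.trans (RG_geo 96 128 geo_96_128)
  |>.trans (RG_geo 128 160 geo_128_160)
  |>.trans (RG_geo 160 192 geo_160_192)
  |>.trans (RG_geo 192 224 geo_192_224)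
  |>.trans (RG_geo 224 256 geo_224_256)
  |>.trans (RG_geo 256 288 geo_256_288)
  |>.trans (RG_geo 288 320 geo_288_320)
  |>.trans (RG_geo 320 321 geo_320_321)

theorem clq_all : clqChk 0 321 = true :=
  (clqChk_merge 0 231 321 (clqChk_merge 0 165 231 (clqChk_merge 0 137 165 (clqChk_merge 0 120 137 (clqChk_merge 0 105 120 (clqChk_merge 0 94 105 (clqChk_merge 0 82 94 (clqChk_merge 0 71 82 (clqChk_merge 0 62 71 (clqChk_merge 0 54 62 (clqChk_merge 0 46 54 (clqChk_merge 0 38 46 (clqChk_merge 0 31 38 (clqChk_merge 0 25 31 (clqChk_merge 0 19 25 (clqChk_merge 0 14 19 (clqChk_merge 0 9 14 (clqChk_merge 0 4 9 clq_0_4 clq_4_9) clq_9_14) clq_14_19) clq_19_25) clq_25_31) clq_31_38) clq_38_46) clq_46_54) clq_54_62) clq_62_71) clq_71_82) clq_82_94) clq_94_105) clq_105_120) clq_120_137) clq_137_165) clq_165_231) clq_231_321)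

theorem all_checks : AllChecks where
  rows := ⟨Krows_len, fun i hi => rows_all i (Nat.zero_le _) hi hi⟩
  geo := fun i hi => geo_all i (Nat.zero_le _) hi (by omega)
  tr := trace_ok
  clq := clq_all

theorem borsuk63 :
    ∃ Y : Set (EuclideanSpace ℝ (Fin 63)), Y.Finite ∧ 0 < Metric.diam Y ∧
      ∀ (n : ℕ) (P : Fin n → Set (EuclideanSpace ℝ (Fin 63))), Y = ⋃ k, P k →
        (∀ k, Metric.diam (P k) < Metric.diam Y) → 65 ≤ n :=
  borsuk63_of_checks all_checks

end Vale.Agent.P052
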